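import Vale.Agent.P272.K.QN.H977.Cont
import Vale.Agent.P272.K.INT.Global

/-! QN, block GL: the integrated Schwarz lemma on `X`. -/

open scoped Manifold ContDiff Topology ComplexConjugate ComplexOrder Matrix
open Matrix MeasureTheory Filter Set
open TopologicalSpace (Opens)
open Vale.Agent.P272.K.P1

set_option linter.all false

noncomputable section

namespace Vale.Agent.P272.K.QN

open C2 (DM DMb MD MC D2)
open INT (IsDensity intX part Part)

variable {n : ℕ}

section pointwise

lemma posDef_det_eq {M : Matrix (Fin n) (Fin n) ℂ} (hM : M.PosDef) :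
    M.det = ((M.det.re : ℝ) : ℂ) := by
  have h := (Complex.lt_def.1 hM.det_pos).2
  apply Complex.ext
  · simp
  · simp only [Complex.ofReal_im]
    simpa using h.symm

lemma posDef_det_re_pos {M : Matrix (Fin n) (Fin n) ℂ} (hM : M.PosDef) : 0 < M.det.re :=
  (Complex.lt_def.1 hM.det_pos).1

/-- pointwise inequality -/
theorem point_ineq (hP : PTBlock n) {G H : Cm n → Matrix (Fin n) (Fin n) ℂ} {z : Cm n}
    (hG : (G z).PosDef) (hH : ∀ᶠ y in 𝓝 z, (H y).IsHermitian) (hHs : (H z).PosSemidef)
    (hHd : MC 1 H z) {κ : ℝ} (hκ : 0 ≤ κ) (hc : CurvLe κ H z)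
    (hric : (-cHess (fun y => Real.log (G y).det.re) z + G z).PosSemidef) {S : ℝ} (hS : 0 < S) :
    (G z).det.re * (κ / 2 * (((G z)⁻¹ * H z).trace.re - n / S) - 2) ≤
      ∫ s in (0 : ℝ)..S, rhs s G H z := by
  obtain ⟨p, f, L, P, hf, hD, hD2, hq⟩ := hc
  set M : Fin n → Matrix (Fin n) (Fin p) ℂ := fun k => L k - Gam G k z * f with hM
  have hN : Nf G H z = fun k => M k * fᴴ := by
    funext k
    rw [Nf, hD, hf, hM]
    simp only [Matrix.sub_mul, Matrix.mul_assoc]
  have hDb : ∀ l, DMb l H z = f * (L l)ᴴ := by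
    intro l
    rw [C2.DMb_of_isHermitian (hHd.md one_ne_zero) hH, hD, Matrix.conjTranspose_mul,
      Matrix.conjTranspose_conjTranspose]
  have hE : Ef G H z = fun k l => P k l + M k * (M l)ᴴ := by
    funext k l
    rw [Ef, hD2, hDb, hD, hf, hM]
    simp only [Matrix.sub_mul, Matrix.mul_sub, Matrix.conjTranspose_sub, Matrix.conjTranspose_mul,
      Matrix.mul_assoc]
    abel
  have key := hP p (G z) hG f M P (-cHess (fun y => Real.log (G y).det.re) z) κ hκ
    (fun ξ => by rw [← hf]; exact hq ξ) hric S hS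
  rw [← hf] at key
  have e1 : ∀ s ∈ uIcc (0 : ℝ) S, rhs s G H z = (G z).det.re *
      ((G z).det.re * ((G z + (s : ℂ) • H z)⁻¹).det.re *
        (cE (G z + (s : ℂ) • H z)⁻¹ (fun k l => P k l + M k * (M l)ᴴ)
          + 2 * ((G z + (s : ℂ) • H z)⁻¹ * H z * (G z + (s : ℂ) • H z)⁻¹ *
              -cHess (fun y => Real.log (G y).det.re) z).trace
          + cN s (G z + (s : ℂ) • H z)⁻¹
              ((G z + (s : ℂ) • H z)⁻¹ * G z * (G z + (s : ℂ) • H z)⁻¹)
              (fun k => M k * fᴴ)).re) := by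
    intro s hs
    rw [uIcc_of_le hS.le] at hs
    have hp : (Cf s G H z).PosDef := (gs_posDef hG hHs hs.1).inv
    unfold rhs
    rw [hE, hN]
    have e2 : wt s G H z = (((G z).det.re ^ 2 * (Cf s G H z).det.re : ℝ) : ℂ) := by
      unfold wt
      conv_lhs => rw [posDef_det_eq hG, posDef_det_eq hp]
      push_cast; ring
    rw [e2, Complex.re_ofReal_mul]
    unfold Bf Cf
    ring
  rw [intervalIntegral.integral_congr e1, intervalIntegral.integral_const_mul]
  exact mul_le_mul_of_nonneg_left key (posDef_det_re_pos hG).le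

end pointwise

section
variable {X : Type*} [TopologicalSpace X] [ChartedSpace (Cm n) X] [CompactSpace X]
  {h g : Chart n X → Cm n → Matrix (Fin n) (Fin n) ℂ} {e : Chart n X}

lemma to_compact (he : e ∈ atlas (Cm n) X) {ρ : X → ℝ} (hs' : tsupport ρ ⊆ e.source)
    (c : Cm n → ℝ) : ∫ z in e.target, ρ (e.symm z) * c z =
      ∫ z in e '' tsupport ρ, ρ (e.symm z) * c z := by
  refine setIntegral_eq_of_subset_of_forall_sdiff_eq_zero e.open_target.measurableSet
    (image_tsupport_subset hs') fun z hz => ?_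
  have h1 : e.symm z ∉ tsupport ρ := fun h => hz.2 ⟨_, h, e.right_inv hz.1⟩
  rw [image_eq_zero_of_notMem_tsupport h1, zero_mul]

lemma integrable_prod (hg : IsHermitian g) (hh : IsSemi h) (he : e ∈ atlas (Cm n) X) {ρ : X → ℝ}
    (hρ : Continuous ρ) (hs' : tsupport ρ ⊆ e.source) {S : ℝ} (hS : 0 < S) :
    Integrable (Function.uncurry fun (s : ℝ) (z : Cm n) => ρ (e.symm z) * rhs s (g e) (h e) z)
      ((volume.restrict (uIoc 0 S)).prod (volume.restrict (e '' tsupport ρ))) := by
  have hK := isCompact_image_tsupport (e := e) hs'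
  have hsub := image_tsupport_subset (e := e) hs'
  rw [uIoc_of_le hS.le, Measure.prod_restrict]
  have h1 : ContinuousOn (Function.uncurry fun (s : ℝ) (z : Cm n) =>
      ρ (e.symm z) * rhs s (g e) (h e) z) (Icc 0 S ×ˢ (e '' tsupport ρ)) := by
    refine ContinuousOn.mul ?_ ?_
    · have h2 : ContinuousOn (fun z => ρ (e.symm z)) e.target :=
        hρ.comp_continuousOn e.continuousOn_symm
      exact h2.comp continuousOn_snd fun p hp => hsub hp.2
    · exact (contOn_rhs hg hh he).mono fun p hp => ⟨hp.1.1, hsub hp.2⟩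
  exact (h1.integrableOn_compact (isCompact_Icc.prod hK)).mono_set
    (prod_mono Ioc_subset_Icc_self subset_rfl)

lemma swap_chart (hg : IsHermitian g) (hh : IsSemi h) (he : e ∈ atlas (Cm n) X) {ρ : X → ℝ}
    (hρ : Continuous ρ) (hs' : tsupport ρ ⊆ e.source) {S : ℝ} (hS : 0 < S) :
    ∫ z in e.target, ρ (e.symm z) * ∫ s in (0 : ℝ)..S, rhs s (g e) (h e) z =
      ∫ s in (0 : ℝ)..S, ∫ z in e.target, ρ (e.symm z) * rhs s (g e) (h e) z := by
  have h1 : ∀ s, ∫ z in e.target, ρ (e.symm z) * rhs s (g e) (h e) z =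
      ∫ z in e '' tsupport ρ, ρ (e.symm z) * rhs s (g e) (h e) z :=
    fun s => to_compact he hs' _
  simp only [h1]
  rw [to_compact he hs', intervalIntegral_integral_swap (integrable_prod hg hh he hρ hs' hS)]
  simp only [intervalIntegral.integral_const_mul]

lemma intervalIntegrable_chart (hg : IsHermitian g) (hh : IsSemi h) (he : e ∈ atlas (Cm n) X)
    {ρ : X → ℝ} (hρ : Continuous ρ) (hs' : tsupport ρ ⊆ e.source) {S : ℝ} (hS : 0 < S) :
    IntervalIntegrable (fun s => ∫ z in e.target, ρ (e.symm z) * rhs s (g e) (h e) z)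
      volume 0 S := by
  have h1 : (fun s => ∫ z in e.target, ρ (e.symm z) * rhs s (g e) (h e) z) =
      fun s => ∫ z in e '' tsupport ρ, ρ (e.symm z) * rhs s (g e) (h e) z :=
    funext fun s => to_compact he hs' _
  rw [h1, intervalIntegrable_iff]
  exact (integrable_prod hg hh he hρ hs' hS).integral_prod_left

lemma integrableOn_inner (hg : IsHermitian g) (hh : IsSemi h) (he : e ∈ atlas (Cm n) X)
    {ρ : X → ℝ} (hρ : Continuous ρ) (hs' : tsupport ρ ⊆ e.source) {S : ℝ} (hS : 0 < S) :
    IntegrableOn (fun z => ρ (e.symm z) * ∫ s in (0 : ℝ)..S, rhs s (g e) (h e) z)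
      (e '' tsupport ρ) := by
  have h1 := (integrable_prod hg hh he hρ hs' hS).integral_prod_right
  refine h1.congr (Eventually.of_forall fun z => ?_)
  simp only [Function.uncurry]
  rw [intervalIntegral.integral_of_le hS.le, ← integral_const_mul, uIoc_of_le hS.le]

end

section
variable {X : Type*} [TopologicalSpace X] [ChartedSpace (Cm n) X] [IsManifold 𝓘(ℂ, Cm n) ω X]
  [T2Space X] [CompactSpace X]
  {h g : Chart n X → Cm n → Matrix (Fin n) (Fin n) ℂ}

lemma isDensity_tr (hg : IsHermitian g) (hh : IsSemi h) :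
    IsDensity fun e z => ((g e z)⁻¹ * h e z).trace.re * (g e z).det.re where
  cont e x hx := by
    have hgi : ∀ i j, ContDiffAt ℝ ∞ (fun y => (g e y)⁻¹ i j) (e x) :=
      fun i j => contDiffAt_inv (hg.smooth e x hx) (hg.det_ne_zero hx) i j
    have h1 := contDiffAt_trace_mul hgi (hh.smooth e x hx)
    have h4 := contDiffAt_det (hg.smooth e x hx)
    exact (contDiffAt_re h1).continuousAt.mul (contDiffAt_re h4).continuousAt
  change e e' x hx hx' := by
    rw [trace_inv hg.isForm hh.change hx hx', det_form_re hg.isForm hx hx']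
    ring

/-- the inequality for fixed `S` -/
theorem intX_S (hI : IdentBlock n) (hP : PTBlock n) (hg : IsKahler g) (hh : IsSemi h)
    (hric : ∀ e x, At e x →
      (-cHess (fun z => Real.log (g e z).det.re) (e x) + g e (e x)).PosSemidef)
    {κ : X → ℝ} (hκc : Continuous κ) (hκ : ∀ x, 0 ≤ κ x)
    (hc : ∀ e x, At e x → CurvLe (κ x) (h e) (e x)) {S : ℝ} (hS : 0 < S) :
    intX (fun e z => (g e z).det.re *
      (κ (e.symm z) / 2 * (((g e z)⁻¹ * h e z).trace.re - n / S) - 2)) ≤ 0 := by
  set P := part n X with hPdef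
  have hgH := hg.toIsHermitian
  have h0 : ∀ i : Fin P.N, ∫ z in (P.e i).target, P.ρ i ((P.e i).symm z) *
      ((g (P.e i) z).det.re * (κ ((P.e i).symm z) / 2 *
        (((g (P.e i) z)⁻¹ * h (P.e i) z).trace.re - n / S) - 2)) ≤
      ∫ s in (0 : ℝ)..S, ∫ z in (P.e i).target, P.ρ i ((P.e i).symm z) *
        rhs s (g (P.e i)) (h (P.e i)) z := by
    intro i
    have he := P.mem i
    have hsub := image_tsupport_subset (e := P.e i) (P.supp i)
    rw [← swap_chart hgH hh he (P.cont i) (P.supp i) hS, to_compact he (P.supp i),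
      to_compact he (P.supp i)]
    refine setIntegral_mono_on ?_ (integrableOn_inner hgH hh he (P.cont i) (P.supp i) hS)
      (isCompact_image_tsupport (P.supp i)).measurableSet fun z hz => ?_
    · refine ContinuousOn.integrableOn_compact (isCompact_image_tsupport (P.supp i)) ?_
      have c1 : ContinuousOn (fun z => P.ρ i ((P.e i).symm z)) (P.e i).target :=
        (P.cont i).comp_continuousOn (P.e i).continuousOn_symm
      have c2 : ContinuousOn (fun z => κ ((P.e i).symm z)) (P.e i).target :=
        hκc.comp_continuousOn (P.e i).continuousOn_symm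
      have c3 : ContinuousOn (fun z => (g (P.e i) z).det.re) (P.e i).target := fun z hz =>
        (contDiffAt_re (mc_g hgH he hz).det).continuousAt.continuousWithinAt
      have c4 : ContinuousOn (fun z => ((g (P.e i) z)⁻¹ * h (P.e i) z).trace.re)
          (P.e i).target := fun z hz =>
        (contDiffAt_re (((mc_g hgH he hz).inv (hgH.det_ne_zero_target he hz)).mul
          (mc_h hh he hz)).trace).continuousAt.continuousWithinAt
      exact (c1.mul (c3.mul (((c2.div_const 2).mul (c4.sub continuousOn_const)).sub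
        continuousOn_const))).mono hsub
    · have hzt := hsub hz
      have hx := At.of_target he hzt
      refine mul_le_mul_of_nonneg_left ?_ (P.nonneg i _)
      refine point_ineq hP (hgH.posDef_target he hzt) ?_ (psd_h hh he hzt)
        ((mc_h hh he hzt).mono (by exact WithTop.coe_le_coe.2 le_top)) (hκ _) ?_ ?_ hS
      · filter_upwards [(P.e i).open_target.mem_nhds hzt] with y hy
        exact (psd_h hh he hy).isHermitian
      · have := hc (P.e i) _ hx
        rwa [(P.e i).right_inv hzt] at this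
      · have := hric (P.e i) _ hx
        rwa [(P.e i).right_inv hzt] at this
  calc intX (fun e z => (g e z).det.re *
      (κ (e.symm z) / 2 * (((g e z)⁻¹ * h e z).trace.re - n / S) - 2))
      ≤ ∑ i : Fin P.N, ∫ s in (0 : ℝ)..S, ∫ z in (P.e i).target, P.ρ i ((P.e i).symm z) *
        rhs s (g (P.e i)) (h (P.e i)) z := Finset.sum_le_sum fun i _ => h0 i
    _ = ∫ s in (0 : ℝ)..S, ∑ i : Fin P.N, ∫ z in (P.e i).target, P.ρ i ((P.e i).symm z) *
        rhs s (g (P.e i)) (h (P.e i)) z :=
        (intervalIntegral.integral_finsetSum fun i _ =>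
          intervalIntegrable_chart hgH hh (P.mem i) (P.cont i) (P.supp i) hS).symm
    _ = ∫ s in (0 : ℝ)..S, (0 : ℝ) := by
        refine intervalIntegral.integral_congr fun s hs => ?_
        rw [uIcc_of_le hS.le] at hs
        exact intX_rhs hI hg hh hs.1
    _ = 0 := by simp

end

/-- **Block GL** -/
theorem glBlock (hI : IdentBlock n) (hP : PTBlock n) (X : Type) [TopologicalSpace X]
    [ChartedSpace (Cm n) X] [IsManifold 𝓘(ℂ, Cm n) ω X] [T2Space X] [CompactSpace X] :
    GLBlock n X := by
  intro g h hg hh hric κ hκc hκ hc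
  have hgH := hg.toIsHermitian
  have d3 : IsDensity fun (e : Chart n X) z => (g e z).det.re := INT.isDensity_det hgH.isForm
    hgH.smooth
  have dt := isDensity_tr hgH hh
  have d1 := dt.smul hκc
  have d2 := d3.smul hκc
  set I1 := intX (fun (e : Chart n X) z => κ (e.symm z) *
    (((g e z)⁻¹ * h e z).trace.re * (g e z).det.re)) with hI1
  set I2 := intX (fun (e : Chart n X) z => κ (e.symm z) * (g e z).det.re) with hI2
  set I3 := intX (fun (e : Chart n X) z => (g e z).det.re) with hI3
  have key : ∀ S : ℝ, 0 < S → I1 ≤ 4 * I3 + n / S * I2 := by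
    intro S hS
    have h1 := intX_S hI hP hg hh hric hκc hκ hc hS
    have h2 : intX (fun (e : Chart n X) z => (g e z).det.re *
      (κ (e.symm z) / 2 * (((g e z)⁻¹ * h e z).trace.re - n / S) - 2)) =
      1 / 2 * I1 - (n / (2 * S)) * I2 - 2 * I3 := by
      rw [hI1, hI2, hI3, ← INT.intX_const_mul, ← INT.intX_const_mul, ← INT.intX_const_mul,
        ← INT.intX_sub (d1.const_mul (1 / 2)) (d2.const_mul (n / (2 * S))),
        ← INT.intX_sub ((d1.const_mul (1 / 2)).sub (d2.const_mul (n / (2 * S))))
          (d3.const_mul 2)]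
      refine INT.intX_congr fun e x hx => ?_
      field_simp
    rw [h2] at h1
    have h3 : (n : ℝ) / S * I2 = 2 * ((n / (2 * S)) * I2) := by field_simp
    rw [h3]
    linarith
  have h4 : I1 ≤ 4 * I3 := by
    have h5 : Tendsto (fun S : ℝ => 4 * I3 + n / S * I2) atTop (𝓝 (4 * I3 + 0 * I2)) :=
      tendsto_const_nhds.add ((tendsto_const_nhds.div_atTop tendsto_id).mul_const I2)
    rw [zero_mul, add_zero] at h5
    refine ge_of_tendsto h5 ?_
    filter_upwards [eventually_gt_atTop (0 : ℝ)] with S hS using key S hS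
  have h6 : intX (fun (e : Chart n X) z => κ (e.symm z) * ((g e z)⁻¹ * h e z).trace.re *
      (g e z).det.re) = I1 := INT.intX_congr fun e x hx => by ring
  rw [h6]; exact h4

end Vale.Agent.P272.K.QN
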