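import Vale.Agent.P272.K.QN.H977.Ibp

/-! QN, block GL: joint continuity of the density in `(s, z)` and Fubini. -/

open scoped Manifold ContDiff Topology ComplexConjugate ComplexOrder Matrix
open Matrix MeasureTheory Filter Set
open TopologicalSpace (Opens)
open Vale.Agent.P272.K.P1

set_option linter.all false

noncomputable section

namespace Vale.Agent.P272.K.QN

open C2 (DM DMb MD MC D2)
open INT (IsDensity intX part Part)

variable {n : ℕ}

section param
variable {α : Type*} [TopologicalSpace α]

lemma cont_cE {C : α → Matrix (Fin n) (Fin n) ℂ}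
    {E : Fin n → Fin n → α → Matrix (Fin n) (Fin n) ℂ}
    (hC : Continuous C) (hE : ∀ k l, Continuous (E k l)) :
    Continuous fun a => cE (C a) (fun k l => E k l a) := by
  unfold cE
  refine continuous_finsetSum _ fun k _ => continuous_finsetSum _ fun l _ => ?_
  exact ((hC.matrix_elem l k).mul (hC.matrix_mul (hE k l)).matrix_trace).add
    (((hC.matrix_mul (hE k l)).matrix_mul hC).matrix_elem l k)

lemma cont_cN {s : α → ℝ} {C B : α → Matrix (Fin n) (Fin n) ℂ}
    {N : Fin n → α → Matrix (Fin n) (Fin n) ℂ} (hs : Continuous s) (hC : Continuous C)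
    (hB : Continuous B) (hN : ∀ k, Continuous (N k)) :
    Continuous fun a => cN (s a) (C a) (B a) (fun k => N k a) := by
  have hsC : Continuous fun a => ((s a : ℝ) : ℂ) := Complex.continuous_ofReal.comp hs
  have hNH : ∀ k, Continuous fun a => (N k a)ᴴ := fun k => (hN k).matrix_conjTranspose
  have m : ∀ {U V : α → Matrix (Fin n) (Fin n) ℂ}, Continuous U → Continuous V →
    Continuous fun a => U a * V a := fun hU hV => hU.matrix_mul hV
  unfold cN
  refine continuous_finsetSum _ fun k _ => continuous_finsetSum _ fun l _ => ?_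
  have a1 := (m hC (hNH l)).matrix_trace
  have a2 := (m hC (hN k)).matrix_trace
  have a3 := hC.matrix_elem l k
  have a4 := (m (m hC (hN k)) hC).matrix_elem l k
  have a5 := (m (m hC (hNH l)) hC).matrix_elem l k
  have a6 := (m (m (m hC (hNH l)) hC) (hN k)).matrix_trace
  have a7 := (m (m (m (m hC (hNH l)) hC) (hN k)) hC).matrix_elem l k
  have a8 := (m (m (m (m hC (hN k)) hC) (hNH l)) hC).matrix_elem l k
  have a9 := (m (m hC (hN k)) hB).matrix_elem l k
  have a10 := (m (m (m (m hC (hN k)) hB) (hNH l)) hC).matrix_elem l k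
  have a11 := (m (m hC (hNH l)) hB).matrix_elem l k
  have a12 := (m (m (m (m hC (hNH l)) hB) (hN k)) hC).matrix_elem l k
  exact (hsC.neg.mul (((((a1.mul ((a3.mul a2).add a4)).add (a5.mul a2)).add
      (a3.mul a6)).add a7).add a8)).add
    ((continuous_const.mul hsC).mul ((((a1.mul a9).neg.sub a10).add (a2.mul a11)).add a12))

end param

section
variable {X : Type*} [TopologicalSpace X] [ChartedSpace (Cm n) X]
  {h g : Chart n X → Cm n → Matrix (Fin n) (Fin n) ℂ} {e : Chart n X}

lemma contOn_mc {M : Cm n → Matrix (Fin n) (Fin n) ℂ} {U : Set (Cm n)}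
    (hM : ∀ z ∈ U, MC ∞ M z) : ContinuousOn M U := by
  intro z hz
  refine ContinuousAt.continuousWithinAt ?_
  refine continuousAt_pi.2 fun i => continuousAt_pi.2 fun j => (hM z hz i j).continuousAt

/-- the domain of the parameters -/
abbrev Dom (e : Chart n X) : Type := {p : ℝ × Cm n // 0 ≤ p.1 ∧ p.2 ∈ e.target}

lemma cont_pull {M : Cm n → Matrix (Fin n) (Fin n) ℂ} (hM : ∀ z ∈ e.target, MC ∞ M z) :
    Continuous fun p : Dom e => M p.1.2 := by
  have h1 := (contOn_mc hM).restrict
  have h2 : Continuous fun p : Dom e => (⟨p.1.2, p.2.2⟩ : e.target) :=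
    (continuous_snd.comp continuous_subtype_val).subtype_mk _
  exact h1.comp h2

lemma cont_cf (hg : IsHermitian g) (hh : IsSemi h) (he : e ∈ atlas (Cm n) X) :
    Continuous fun p : Dom e => Cf p.1.1 (g e) (h e) p.1.2 := by
  have h1 : Continuous fun p : Dom e => g e p.1.2 := cont_pull fun z hz => mc_g hg he hz
  have h2 : Continuous fun p : Dom e => h e p.1.2 := cont_pull fun z hz => mc_h hh he hz
  have hs : Continuous fun p : Dom e => ((p.1.1 : ℝ) : ℂ) :=
    Complex.continuous_ofReal.comp (continuous_fst.comp continuous_subtype_val)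
  have h3 : Continuous fun p : Dom e => g e p.1.2 + ((p.1.1 : ℝ) : ℂ) • h e p.1.2 :=
    h1.add (hs.smul h2)
  have h4 : ∀ p : Dom e, (g e p.1.2 + ((p.1.1 : ℝ) : ℂ) • h e p.1.2).det ≠ 0 := fun p =>
    (gs_posDef (hg.posDef_target he p.2.2) (psd_h hh he p.2.2) p.2.1).det_pos.ne'
  have h5 : (fun p : Dom e => Cf p.1.1 (g e) (h e) p.1.2) = fun p : Dom e =>
      ((g e p.1.2 + ((p.1.1 : ℝ) : ℂ) • h e p.1.2).det)⁻¹ •
        (g e p.1.2 + ((p.1.1 : ℝ) : ℂ) • h e p.1.2).adjugate := by
    funext p
    rw [Cf, Matrix.inv_def, Ring.inverse_eq_inv']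
  rw [h5]
  exact (h3.matrix_det.inv₀ h4).smul h3.matrix_adjugate

lemma cont_rhs_dom (hg : IsHermitian g) (hh : IsSemi h) (he : e ∈ atlas (Cm n) X) :
    Continuous fun p : Dom e => rhs p.1.1 (g e) (h e) p.1.2 := by
  have hG : Continuous fun p : Dom e => g e p.1.2 := cont_pull fun z hz => mc_g hg he hz
  have hH : Continuous fun p : Dom e => h e p.1.2 := cont_pull fun z hz => mc_h hh he hz
  have hs : Continuous fun p : Dom e => p.1.1 := continuous_fst.comp continuous_subtype_val
  have hC := cont_cf hg hh he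
  have hB : Continuous fun p : Dom e => Bf p.1.1 (g e) (h e) p.1.2 :=
    (hC.matrix_mul hG).matrix_mul hC
  have hN : ∀ k, Continuous fun p : Dom e => Nf (g e) (h e) p.1.2 k := fun k =>
    cont_pull (M := fun z => Nf (g e) (h e) z k) fun z hz =>
      mc_nf (mc_g hg he hz) (mc_h hh he hz) (hg.posDef_target he hz) k
  have hGam : ∀ k, ∀ z ∈ e.target, MC ∞ (fun y => Gam (g e) k y) z := fun k z hz =>
    ((mc_g hg he hz).DM (k := k) inf_add).mul ((mc_g hg he hz).inv
      (hg.posDef_target he hz).det_pos.ne')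
  have hE : ∀ k l, Continuous fun p : Dom e => Ef (g e) (h e) p.1.2 k l := fun k l =>
    cont_pull (M := fun z => Ef (g e) (h e) z k l) fun z hz => by
      have a := mc_h hh he hz
      have b := hGam k z hz
      have c := hGam l z hz
      exact ((((a.DMb (k := l) inf_add).DM (k := k) inf_add).sub
        (b.mul (a.DMb (k := l) inf_add))).sub
        ((a.DM (k := k) inf_add).mul c.conjTranspose)).add ((b.mul a).mul c.conjTranspose)
  have hR : Continuous fun p : Dom e => -cHess (fun y => Real.log (g e y).det.re) p.1.2 :=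
    (cont_pull (M := fun z => cHess (fun y => Real.log (g e y).det.re) z) fun z hz i j => by
      have h1 : ContDiffAt ℝ ∞ (fun y => Real.log (g e y).det.re) z := by
        refine ContDiffAt.log (contDiffAt_re (mc_g hg he hz).det) ?_
        exact (Complex.lt_def.1 (hg.posDef_target he hz).det_pos).1.ne'
      exact contDiffAt_cHess h1 inf_add i j).neg
  have hW : Continuous fun p : Dom e => wt p.1.1 (g e) (h e) p.1.2 :=
    (hG.matrix_det.pow 2).mul hC.matrix_det
  have h1 := cont_cE hC hE
  have h2 := (((hC.matrix_mul hH).matrix_mul hC).matrix_mul hR).matrix_trace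
  have h3 := cont_cN hs hC hB hN
  exact Complex.continuous_re.comp (hW.mul ((h1.add (continuous_const.mul h2)).add h3))

lemma contOn_rhs (hg : IsHermitian g) (hh : IsSemi h) (he : e ∈ atlas (Cm n) X) :
    ContinuousOn (fun p : ℝ × Cm n => rhs p.1 (g e) (h e) p.2)
      {p : ℝ × Cm n | 0 ≤ p.1 ∧ p.2 ∈ e.target} := by
  rw [continuousOn_iff_continuous_restrict]
  exact cont_rhs_dom hg hh he

end

end Vale.Agent.P272.K.QN
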