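import Vale.Agent.P272.K.QN.H977.Tensor

/-! QN, block GL: integration by parts on `X`. -/

open scoped Manifold ContDiff Topology ComplexConjugate ComplexOrder Matrix
open Matrix MeasureTheory Filter Set
open TopologicalSpace (Opens)
open Vale.Agent.P272.K.P1

set_option linter.all false

noncomputable section

namespace Vale.Agent.P272.K.QN

open C2 (DM DMb MD MC)
open INT (IsDensity intX part Part)

variable {n : ℕ}

section local_smooth
variable {G H : Cm n → Matrix (Fin n) (Fin n) ℂ} {z : Cm n} {s : ℝ}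

lemma inf_add : (∞ : WithTop ℕ∞) + 1 ≤ ∞ := le_of_eq rfl

lemma gs_posDef (hG : (G z).PosDef) (hH : (H z).PosSemidef) (hs : 0 ≤ s) :
    (G z + (s : ℂ) • H z).PosDef := by
  have h1 := Matrix.PosDef.posSemidef_add (posSemidef_ofReal_smul hH hs) hG
  rwa [add_comm] at h1

lemma mc_gs (hG : MC ∞ G z) (hH : MC ∞ H z) (s : ℝ) :
    MC ∞ (fun y => G y + (s : ℂ) • H y) z := fun i j => by
  have : (fun y => (G y + (s : ℂ) • H y) i j) = fun y => G y i j + (s : ℂ) * H y i j := by
    funext y; simp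
  rw [this]
  exact (hG i j).add (contDiffAt_const.mul (hH i j))

lemma mc_cf (hG : MC ∞ G z) (hH : MC ∞ H z) (hGp : (G z).PosDef) (hHp : (H z).PosSemidef)
    (hs : 0 ≤ s) : MC ∞ (Cf s G H) z :=
  (mc_gs hG hH s).inv (gs_posDef hGp hHp hs).det_pos.ne'

lemma mc_nf (hG : MC ∞ G z) (hH : MC ∞ H z) (hGp : (G z).PosDef) (k : Fin n) :
    MC ∞ (fun y => Nf G H y k) z := by
  have h1 : MC ∞ (fun y => Gam G k y) z :=
    (hG.DM (k := k) inf_add).mul (hG.inv hGp.det_pos.ne')
  exact (hH.DM (k := k) inf_add).sub (h1.mul hH)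

lemma mc_bf (hG : MC ∞ G z) (hH : MC ∞ H z) (hGp : (G z).PosDef) (hHp : (H z).PosSemidef)
    (hs : 0 ≤ s) : MC ∞ (Bf s G H) z :=
  ((mc_cf hG hH hGp hHp hs).mul hG).mul (mc_cf hG hH hGp hHp hs)

lemma smooth_vf (hG : MC ∞ G z) (hH : MC ∞ H z) (hGp : (G z).PosDef) (hHp : (H z).PosSemidef)
    (hs : 0 ≤ s) (l : Fin n) : ContDiffAt ℝ ∞ (vf s G H l) z := by
  have hC := mc_cf hG hH hGp hHp hs
  have hB := mc_bf hG hH hGp hHp hs
  have hN := mc_nf hG hH hGp
  refine ContDiffAt.mul ((hG.det.pow 2).mul hC.det) (ContDiffAt.sum fun k _ => ?_)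
  refine ContDiffAt.sub (ContDiffAt.add (ContDiffAt.add ?_ ?_) ?_) ?_
  · exact (hC l k).mul (hC.mul (hN k)).trace
  · exact ((hC.mul (hN k)).mul hC) l k
  · exact contDiffAt_const.mul (((hC.mul (hN k)).mul hB) l k)
  · exact contDiffAt_const.mul (((hB.mul (hN k)).mul hC) l k)

end local_smooth

section
variable {X : Type*} [TopologicalSpace X] [ChartedSpace (Cm n) X]
  {h g : Chart n X → Cm n → Matrix (Fin n) (Fin n) ℂ} {e e' : Chart n X} {x : X}

lemma mc_g (hg : IsHermitian g) (he : e ∈ atlas (Cm n) X) {z : Cm n} (hz : z ∈ e.target) :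
    MC ∞ (g e) z := fun i j => hg.smooth_target he hz i j

lemma mc_h (hh : IsSemi h) (he : e ∈ atlas (Cm n) X) {z : Cm n} (hz : z ∈ e.target) :
    MC ∞ (h e) z := fun i j => by
  have := hh.smooth e (e.symm z) (At.of_target he hz) i j
  rwa [e.right_inv hz] at this

lemma psd_h (hh : IsSemi h) (he : e ∈ atlas (Cm n) X) {z : Cm n} (hz : z ∈ e.target) :
    (h e z).PosSemidef := by
  have := hh.pos e (e.symm z) (At.of_target he hz)
  rwa [e.right_inv hz] at this

lemma smooth_vf' (hg : IsHermitian g) (hh : IsSemi h) (he : e ∈ atlas (Cm n) X) {z : Cm n}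
    (hz : z ∈ e.target) {s : ℝ} (hs : 0 ≤ s) (l : Fin n) :
    ContDiffAt ℝ ∞ (vf s (g e) (h e) l) z :=
  smooth_vf (mc_g hg he hz) (mc_h hh he hz) (hg.posDef_target he hz) (psd_h hh he hz) hs l

lemma smooth_symm {u : X → ℝ} (hu : SmoothFn (n := n) u) (he : e ∈ atlas (Cm n) X) {z : Cm n}
    (hz : z ∈ e.target) : ContDiffAt ℝ ∞ (fun y => ((u (e.symm y) : ℝ) : ℂ)) z := by
  have := hu e (e.symm z) (At.of_target he hz)
  rw [e.right_inv hz] at this
  exact ofReal_contDiffAt this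

lemma continuousAt_wd (hg : IsHermitian g) (hh : IsSemi h) {u : X → ℝ}
    (hu : SmoothFn (n := n) u) (he : e ∈ atlas (Cm n) X) {z : Cm n} (hz : z ∈ e.target) {s : ℝ}
    (hs : 0 ≤ s) : ContinuousAt (Wd s g h u e) z := by
  unfold Wd
  refine Complex.continuous_re.continuousAt.comp ?_
  refine tendsto_finsetSum _ fun l _ => ?_
  exact ((contDiffAt_dzb (m := ∞) (smooth_symm hu he hz) inf_add).continuousAt).mul
    (smooth_vf' hg hh he hz hs l).continuousAt

theorem isDensity_wd [IsManifold 𝓘(ℂ, Cm n) ω X] (hg : IsHermitian g) (hh : IsSemi h) {u : X → ℝ}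
    (hu : SmoothFn (n := n) u) {s : ℝ} (hs : 0 ≤ s) : IsDensity (Wd s g h u) where
  cont e x hx := continuousAt_wd hg hh hu hx.1 hx.mem_target hs
  change e e' x hx hx' := wd_change hg hh hu hx hx' s

/-- the components multiplied with the cutoff -/
def Fl (s : ℝ) (g h : Chart n X → Cm n → Matrix (Fin n) (Fin n) ℂ) (ρ : X → ℝ) (e : Chart n X)
    (l : Fin n) (z : Cm n) : ℂ := ((cutZ e ρ z : ℝ) : ℂ) * vf s (g e) (h e) l z

variable [CompactSpace X]

lemma cutZ_zero_near (he : e ∈ atlas (Cm n) X) {ρ : X → ℝ} (hs' : tsupport ρ ⊆ e.source)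
    {z : Cm n} (hz : z ∉ e.target) : cutZ e ρ =ᶠ[𝓝 z] fun _ => 0 := by
  have h1 : z ∉ e '' tsupport ρ := fun h' => hz (image_tsupport_subset hs' h')
  filter_upwards [(isCompact_image_tsupport hs').isClosed.isOpen_compl.mem_nhds h1] with y hy
  by_contra h3
  exact hy (support_cutZ h3).1

lemma Fl_zero_near (he : e ∈ atlas (Cm n) X) {ρ : X → ℝ} (hs' : tsupport ρ ⊆ e.source)
    {z : Cm n} (hz : z ∉ e.target) {s : ℝ} (l : Fin n) : Fl s g h ρ e l =ᶠ[𝓝 z] fun _ => 0 := by
  filter_upwards [cutZ_zero_near he hs' hz] with y hy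
  simp [Fl, hy]

lemma contDiff_Fl (hg : IsHermitian g) (hh : IsSemi h) (he : e ∈ atlas (Cm n) X) {ρ : X → ℝ}
    (hρ : SmoothFn (n := n) ρ) (hs' : tsupport ρ ⊆ e.source) {s : ℝ} (hs : 0 ≤ s) (l : Fin n) :
    ContDiff ℝ ∞ (Fl s g h ρ e l) := by
  rw [contDiff_iff_contDiffAt]
  intro z
  by_cases hz : z ∈ e.target
  · exact (ofReal_contDiffAt ((contDiff_cutZ he hρ hs').contDiffAt)).mul
      (smooth_vf' hg hh he hz hs l)
  · exact contDiffAt_const.congr_of_eventuallyEq (Fl_zero_near he hs' hz l)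

lemma hasCompactSupport_Fl (he : e ∈ atlas (Cm n) X) {ρ : X → ℝ}
    (hs' : tsupport ρ ⊆ e.source) {s : ℝ} (l : Fin n) :
    HasCompactSupport (Fl s g h ρ e l) := by
  refine (hasCompactSupport_cutZ hs').mono ?_
  intro z hz
  rw [Function.mem_support] at hz ⊢
  intro h0
  exact hz (by simp [Fl, h0])

lemma dzb_Fl (hg : IsHermitian g) (hh : IsSemi h) (he : e ∈ atlas (Cm n) X) {ρ : X → ℝ}
    (hρ : SmoothFn (n := n) ρ) (hs' : tsupport ρ ⊆ e.source) {s : ℝ} (hs : 0 ≤ s) (l : Fin n)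
    {z : Cm n} (hz : z ∈ e.target) : dzb l (Fl s g h ρ e l) z =
      dzb l (fun y => ((ρ (e.symm y) : ℝ) : ℂ)) z * vf s (g e) (h e) l z +
        ((ρ (e.symm z) : ℝ) : ℂ) * dzb l (vf s (g e) (h e) l) z := by
  have h1 : Fl s g h ρ e l =ᶠ[𝓝 z] fun y => ((ρ (e.symm y) : ℝ) : ℂ) * vf s (g e) (h e) l y := by
    filter_upwards [cutZ_eventuallyEq (ρ := ρ) hz] with y hy
    simp only [Fl, hy]
  rw [dzb_congr h1, dzb_mul ((smooth_symm hρ he hz).differentiableAt (by simp))
    ((smooth_vf' hg hh he hz hs l).differentiableAt (by simp))]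

/-- data of a Kähler metric in a chart -/
lemma met_of_chart (hg : IsHermitian g) (he : e ∈ atlas (Cm n) X) :
    Met ⟨e.target, e.open_target⟩ (g e) :=
  ⟨fun z hz i j => hg.smooth_target he hz i j, fun z hz => hg.posDef_target he hz⟩

lemma ident_chart (hI : IdentBlock n) (hg : IsKahler g) (hh : IsSemi h)
    (he : e ∈ atlas (Cm n) X) {s : ℝ} (hs : 0 ≤ s) {z : Cm n} (hz : z ∈ e.target) :
    (∑ l, dzb l (vf s (g e) (h e) l) z).re = rhs s (g e) (h e) z := by
  refine hI ⟨e.target, e.open_target⟩ (g e) (h e) (met_of_chart hg.toIsHermitian he)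
    (fun z hz i j => mc_h hh he hz i j) (fun z hz => psd_h hh he hz) (fun z hz i j l => ?_) s hs z hz
  have := hg.closed e _ (At.of_target he hz) i j l
  rwa [e.right_inv hz] at this

lemma sum_dzb_Fl (hI : IdentBlock n) (hg : IsKahler g) (hh : IsSemi h)
    (he : e ∈ atlas (Cm n) X) {ρ : X → ℝ}
    (hρ : SmoothFn (n := n) ρ) (hs' : tsupport ρ ⊆ e.source) {s : ℝ} (hs : 0 ≤ s)
    {z : Cm n} (hz : z ∈ e.target) : (∑ l, dzb l (Fl s g h ρ e l) z).re =
      Wd s g h ρ e z + ρ (e.symm z) * rhs s (g e) (h e) z := by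
  rw [← ident_chart hI hg hh he hs hz]
  simp only [dzb_Fl hg.toIsHermitian hh he hρ hs' hs _ hz, Finset.sum_add_distrib, Complex.add_re,
    ← Finset.mul_sum, Complex.re_ofReal_mul]
  rfl

lemma integrable_sum_Fl (hg : IsHermitian g) (hh : IsSemi h) (he : e ∈ atlas (Cm n) X)
    {ρ : X → ℝ} (hρ : SmoothFn (n := n) ρ) (hs' : tsupport ρ ⊆ e.source) {s : ℝ} (hs : 0 ≤ s) :
    Integrable fun z => ∑ l, dzb l (Fl s g h ρ e l) z := by
  refine integrable_finsetSum _ fun l _ => ?_
  have h1 := contDiff_Fl hg hh he hρ hs' hs l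
  have h2 : Continuous (dzb l (Fl s g h ρ e l)) := by
    rw [continuous_iff_continuousAt]
    intro z
    exact (contDiffAt_dzb (m := ∞) (h1.contDiffAt (x := z)) inf_add).continuousAt
  refine h2.integrable_of_hasCompactSupport ?_
  refine (hasCompactSupport_Fl (g := g) (h := h) (s := s) he hs' l).of_isClosed_subset
    (isClosed_tsupport _) ?_
  refine closure_minimal ?_ (isClosed_tsupport _)
  intro z hz
  by_contra h3
  apply hz
  have h4 : Fl s g h ρ e l =ᶠ[𝓝 z] fun _ => 0 := notMem_tsupport_iff_eventuallyEq.1 h3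
  rw [dzb_congr h4, dzb_const]

lemma integral_sum_Fl (hg : IsHermitian g) (hh : IsSemi h) (he : e ∈ atlas (Cm n) X)
    {ρ : X → ℝ} (hρ : SmoothFn (n := n) ρ) (hs' : tsupport ρ ⊆ e.source) {s : ℝ} (hs : 0 ≤ s) :
    ∫ z, ∑ l, dzb l (Fl s g h ρ e l) z = 0 := by
  have h1 : ∀ l, Integrable (dzb l (Fl s g h ρ e l)) := by
    intro l
    have h1 := contDiff_Fl hg hh he hρ hs' hs l
    have h2 : Continuous (dzb l (Fl s g h ρ e l)) := by
      rw [continuous_iff_continuousAt]
      intro z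
      exact (contDiffAt_dzb (m := ∞) (h1.contDiffAt (x := z)) inf_add).continuousAt
    refine h2.integrable_of_hasCompactSupport ?_
    refine (hasCompactSupport_Fl (g := g) (h := h) (s := s) he hs' l).of_isClosed_subset
      (isClosed_tsupport _) ?_
    refine closure_minimal ?_ (isClosed_tsupport _)
    intro z hz
    by_contra h3
    apply hz
    have h4 : Fl s g h ρ e l =ᶠ[𝓝 z] fun _ => 0 := notMem_tsupport_iff_eventuallyEq.1 h3
    rw [dzb_congr h4, dzb_const]
  rw [integral_finsetSum _ fun l _ => h1 l]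
  refine Finset.sum_eq_zero fun l _ => ?_
  exact INT.integral_dzb_eq_zero ((contDiff_Fl hg hh he hρ hs' hs l).of_le (by norm_cast))
    (hasCompactSupport_Fl he hs' l) l

lemma integrableOn_wd (hg : IsHermitian g) (hh : IsSemi h) (he : e ∈ atlas (Cm n) X)
    {ρ : X → ℝ} (hρ : SmoothFn (n := n) ρ) (hs' : tsupport ρ ⊆ e.source) {s : ℝ} (hs : 0 ≤ s) :
    IntegrableOn (Wd s g h ρ e) e.target := by
  refine INT.integrableOn_chart (fun z hz => (continuousAt_wd hg hh hρ he hz hs).continuousWithinAt)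
    (isClosed_tsupport ρ) hs' fun z hz hzK => ?_
  have h2 : (fun y => ((ρ (e.symm y) : ℝ) : ℂ)) =ᶠ[𝓝 z] fun _ => 0 := by
    have h3 : ∀ᶠ y in 𝓝 (e.symm z), ρ y = 0 := by
      filter_upwards [(isClosed_tsupport ρ).isOpen_compl.mem_nhds hzK] with y hy
      exact image_eq_zero_of_notMem_tsupport hy
    filter_upwards [(e.continuousAt_symm hz).eventually h3] with y hy
    simp [hy]
  unfold Wd
  simp only [dzb_congr h2, dzb_const, zero_mul, Finset.sum_const_zero, Complex.zero_re]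

theorem chart_ibp (hI : IdentBlock n) (hg : IsKahler g) (hh : IsSemi h)
    (he : e ∈ atlas (Cm n) X) {ρ : X → ℝ}
    (hρ : SmoothFn (n := n) ρ) (hs' : tsupport ρ ⊆ e.source) {s : ℝ} (hs : 0 ≤ s) :
    ∫ z in e.target, ρ (e.symm z) * rhs s (g e) (h e) z = -∫ z in e.target, Wd s g h ρ e z := by
  have hgH := hg.toIsHermitian
  have h0 := integral_sum_Fl hgH hh he hρ hs' hs
  have hint := integrable_sum_Fl hgH hh he hρ hs' hs
  have h1 : ∫ z, (∑ l, dzb l (Fl s g h ρ e l) z).re = 0 := by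
    have := integral_re hint
    have h3 : (∫ z, RCLike.re (∑ l, dzb l (Fl s g h ρ e l) z)) =
      ∫ z, (∑ l, dzb l (Fl s g h ρ e l) z).re := rfl
    rw [← h3, this, h0]; simp
  have h2 : ∫ z in e.target, (∑ l, dzb l (Fl s g h ρ e l) z).re = 0 := by
    rw [← h1]
    refine setIntegral_eq_integral_of_forall_compl_eq_zero fun z hz => ?_
    rw [Finset.sum_eq_zero]
    · rfl
    · intro l _
      rw [dzb_congr (Fl_zero_near he hs' hz l), dzb_const]
  have h3 : ∫ z in e.target, (∑ l, dzb l (Fl s g h ρ e l) z).re =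
      ∫ z in e.target, (Wd s g h ρ e z + ρ (e.symm z) * rhs s (g e) (h e) z) :=
    setIntegral_congr_fun e.open_target.measurableSet fun z hz =>
      sum_dzb_Fl hI hg hh he hρ hs' hs hz
  have i1 := integrableOn_wd hgH hh he hρ hs' hs
  have i2 : IntegrableOn (fun z => ρ (e.symm z) * rhs s (g e) (h e) z) e.target := by
    have i3 : IntegrableOn (fun z => (∑ l, dzb l (Fl s g h ρ e l) z).re - Wd s g h ρ e z)
        e.target := (hint.re.integrableOn).sub i1
    refine i3.congr_fun (fun z hz => ?_) e.open_target.measurableSet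
    simp only [sum_dzb_Fl hI hg hh he hρ hs' hs hz]
    ring
  rw [h3, integral_add i1 i2] at h2
  linarith

end

section
variable {X : Type*} [TopologicalSpace X] [ChartedSpace (Cm n) X] [IsManifold 𝓘(ℂ, Cm n) ω X]
  [T2Space X] [CompactSpace X]
  {h g : Chart n X → Cm n → Matrix (Fin n) (Fin n) ℂ}

/-- **the total integral of the divergence vanishes** -/
theorem intX_rhs (hI : IdentBlock n) (hg : IsKahler g) (hh : IsSemi h) {s : ℝ} (hs : 0 ≤ s) :
    intX (fun e z => rhs s (g e) (h e) z) = 0 := by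
  set P := part n X with hP
  have hgH := hg.toIsHermitian
  have h1 : ∀ i : Fin P.N, ∫ z in (P.e i).target, P.ρ i ((P.e i).symm z) *
      rhs s (g (P.e i)) (h (P.e i)) z = -intX (Wd s g h (P.ρ i)) := by
    intro i
    rw [chart_ibp hI hg hh (P.mem i) (P.smooth i) (P.supp i) hs]
    rw [INT.intX_of_support (isDensity_wd hgH hh (P.smooth i) hs) (P.mem i)
      (isClosed_tsupport (P.ρ i)) (P.supp i)]
    intro e' x hx hxK
    have h2 : (fun y => ((P.ρ i (e'.symm y) : ℝ) : ℂ)) =ᶠ[𝓝 (e' x)] fun _ => 0 := by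
      have h3 : ∀ᶠ y in 𝓝 x, P.ρ i y = 0 := by
        filter_upwards [(isClosed_tsupport (P.ρ i)).isOpen_compl.mem_nhds hxK] with y hy
        exact image_eq_zero_of_notMem_tsupport hy
      have h4 : Tendsto e'.symm (𝓝 (e' x)) (𝓝 x) := by
        have := e'.continuousAt_symm (e'.map_source hx.2)
        rw [ContinuousAt, e'.left_inv hx.2] at this
        exact this
      filter_upwards [h4.eventually h3] with y hy
      simp [hy]
    unfold Wd
    simp only [dzb_congr h2, dzb_const, zero_mul, Finset.sum_const_zero, Complex.zero_re]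
  have h2 : intX (fun e z => rhs s (g e) (h e) z) = ∑ i : Fin P.N, -intX (Wd s g h (P.ρ i)) :=
    Finset.sum_congr rfl fun i _ => h1 i
  rw [h2, Finset.sum_neg_distrib,
    ← INT.intX_sum Finset.univ fun i _ => isDensity_wd hgH hh (P.smooth i) hs]
  have h3 : intX (fun (e : Chart n X) z => ∑ i : Fin P.N, Wd s g h (P.ρ i) e z) = 0 := by
    rw [← INT.intX_zero (n := n) (X := X)]
    refine INT.intX_congr fun e x hx => ?_
    unfold Wd
    rw [← Complex.re_sum, Finset.sum_comm]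
    have h4 : ∀ l, ∑ i : Fin P.N, dzb l (fun y => ((P.ρ i (e.symm y) : ℝ) : ℂ)) (e x) *
        vf s (g e) (h e) l (e x) = 0 := by
      intro l
      rw [← Finset.sum_mul]
      have h5 : ∑ i : Fin P.N, dzb l (fun y => ((P.ρ i (e.symm y) : ℝ) : ℂ)) (e x) = 0 := by
        rw [← dzb_sum Finset.univ fun i _ =>
          ((smooth_symm (P.smooth i) hx.1 hx.mem_target).differentiableAt (by simp))]
        have h6 : (fun y => ∑ i : Fin P.N, ((P.ρ i (e.symm y) : ℝ) : ℂ)) = fun _ => 1 := by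
          funext y
          rw [← Complex.ofReal_sum, P.sum]; simp
        rw [h6, dzb_const]
      rw [h5, zero_mul]
    rw [Finset.sum_eq_zero fun l _ => h4 l]; rfl
  rw [h3, neg_zero]

end

end Vale.Agent.P272.K.QN
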