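import Vale.Agent.P272.K.QN.Defs
import Vale.Agent.P272.K.T4.Laws
import Vale.Agent.P272.K.Asm.Weak

/-! QN, block GL: transformation laws of `N_k`, `C`, `B`, the weight and the vector field. -/

open scoped Manifold ContDiff Topology ComplexConjugate ComplexOrder Matrix
open Matrix MeasureTheory Filter Set
open Vale.Agent.P272.K.P1

set_option linter.all false

noncomputable section

namespace Vale.Agent.P272.K.QN

open C2 (DM DMb MD MC)
open T4 (DM_law DM_comp hol'_jac gam_law Hol')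
open INT (IsDensity intX)

variable {n : ℕ}
variable {X : Type*} [TopologicalSpace X] [ChartedSpace (Cm n) X] [IsManifold 𝓘(ℂ, Cm n) ω X]
  {h g : Chart n X → Cm n → Matrix (Fin n) (Fin n) ℂ} {e e' : Chart n X} {x : X}

lemma form_near' (hh : IsForm h) (hx : At e x) (hx' : At e' x) :
    h e =ᶠ[𝓝 (e x)] fun z => (jmat (fun z => e' (e.symm z)) z)ᵀ * h e' (e' (e.symm z)) *
      ((jmat (fun z => e' (e.symm z)) z)ᵀ)ᴴ := by
  filter_upwards [hx.nhds_at hx'] with z hz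
  have := hh e e' (e.symm z) hz.2.1 hz.2.2
  rw [e.right_inv hz.1, jacM_eq, e.right_inv hz.1] at this
  rw [this]
  congr 1

lemma mc_pull' (hh : IsSemi h) (hx : At e x) (hx' : At e' x) (m : WithTop ℕ∞) (hm : m ≤ ∞) :
    MC m (h e') ((fun z => e' (e.symm z)) (e x)) := by
  intro i j
  have := hh.smooth e' x hx' i j
  simp only [hx.left_inv]
  exact this.of_le hm

lemma nf_law (hg : IsHermitian g) (hh : IsSemi h) (hx : At e x) (hx' : At e' x) (k : Fin n) :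
    Nf (g e) (h e) (e x) k = ∑ p, jacM e e' x p k •
      ((jacM e e' x)ᵀ * Nf (g e') (h e') (e' x) p * ((jacM e e' x)ᵀ)ᴴ) := by
  have hτ := transition hx hx'
  have hG : MC 1 (h e') ((fun z => e' (e.symm z)) (e x)) :=
    mc_pull' hh hx hx' 1 (by exact WithTop.coe_le_coe.2 le_top)
  have hu := jacM_isUnit hx hx'
  have hT : IsUnit ((jacM e e' x)ᵀ).det := by rw [Matrix.det_transpose]; exact hu
  have hch : h e (e x) = (jacM e e' x)ᵀ * h e' (e' x) * ((jacM e e' x)ᵀ)ᴴ :=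
    hh.change e e' x hx hx'
  unfold Nf
  rw [gam_law hg hx hx', C2.DM_congr (form_near' hh.change hx hx'),
    DM_law (A := fun z => (jmat (fun z => e' (e.symm z)) z)ᵀ)
      (G := fun z => h e' (e' (e.symm z))) (hol'_jac hx hx')
      (T4.MC.comp_holo (τ := fun z => e' (e.symm z)) hG hτ),
    DM_comp (G := h e') (τ := fun z => e' (e.symm z)) hG hτ, hch]
  have e2 : ((jmat (fun z => e' (e.symm z)) (e x))ᵀ)ᴴ = ((jacM e e' x)ᵀ)ᴴ := rfl
  have e3 : (jmat (fun z => e' (e.symm z)) (e x))ᵀ = (jacM e e' x)ᵀ := rfl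
  have e4 : (fun z => e' (e.symm z)) (e x) = e' x := by simp only [hx.left_inv]
  have e5 : jmat (fun z => e' (e.symm z)) (e x) = jacM e e' x := rfl
  rw [e2, e3, hx.left_inv, e5]
  set A := (jacM e e' x)ᵀ with hA
  set D := DM k (fun z => (jmat (fun z => e' (e.symm z)) z)ᵀ) (e x) with hD
  have c1 : A⁻¹ * A = 1 := Matrix.nonsing_inv_mul _ hT
  have k1 : D * A⁻¹ * (A * h e' (e' x) * Aᴴ) = D * h e' (e' x) * Aᴴ := by
    calc _ = D * (A⁻¹ * A) * h e' (e' x) * Aᴴ := by simp only [Matrix.mul_assoc]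
      _ = _ := by rw [c1, Matrix.mul_one]
  have k2 : ∀ p, A * Gam (g e') p (e' x) * A⁻¹ * (A * h e' (e' x) * Aᴴ) =
      A * (Gam (g e') p (e' x) * h e' (e' x)) * Aᴴ := by
    intro p
    calc _ = A * Gam (g e') p (e' x) * (A⁻¹ * A) * h e' (e' x) * Aᴴ := by
          simp only [Matrix.mul_assoc]
      _ = _ := by rw [c1, Matrix.mul_one]; simp only [Matrix.mul_assoc]
  rw [Matrix.add_mul, Matrix.add_mul, k1, Matrix.sum_mul, Matrix.mul_sum, Matrix.sum_mul]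
  have k3 : ∀ p, jacM e e' x p k • (A * Gam (g e') p (e' x) * A⁻¹) * (A * h e' (e' x) * Aᴴ) =
      jacM e e' x p k • (A * (Gam (g e') p (e' x) * h e' (e' x)) * Aᴴ) := by
    intro p; rw [Matrix.smul_mul, k2]
  simp only [k3]
  rw [add_sub_add_left_eq_sub, ← Finset.sum_sub_distrib]
  refine Finset.sum_congr rfl fun p _ => ?_
  rw [Matrix.mul_smul, Matrix.smul_mul, ← smul_sub, ← Matrix.sub_mul, ← Matrix.mul_sub]

lemma gs_law (hg : IsHermitian g) (hh : IsSemi h) (hx : At e x) (hx' : At e' x) (s : ℝ) :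
    g e (e x) + (s : ℂ) • h e (e x) = (jacM e e' x)ᵀ * (g e' (e' x) + (s : ℂ) • h e' (e' x)) *
      ((jacM e e' x)ᵀ)ᴴ := by
  have h1 : h e (e x) = (jacM e e' x)ᵀ * h e' (e' x) * ((jacM e e' x)ᵀ)ᴴ :=
    hh.change e e' x hx hx'
  have h2 : g e (e x) = (jacM e e' x)ᵀ * g e' (e' x) * ((jacM e e' x)ᵀ)ᴴ :=
    hg.change e e' x hx hx'
  rw [h1, h2, Matrix.mul_add, Matrix.add_mul, Matrix.mul_smul, Matrix.smul_mul]

lemma cf_law (hg : IsHermitian g) (hh : IsSemi h) (hx : At e x) (hx' : At e' x) (s : ℝ) :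
    Cf s (g e) (h e) (e x) = (((jacM e e' x)ᵀ)ᴴ)⁻¹ * Cf s (g e') (h e') (e' x) *
      ((jacM e e' x)ᵀ)⁻¹ := by
  unfold Cf
  rw [gs_law hg hh hx hx', Matrix.mul_inv_rev, Matrix.mul_inv_rev, Matrix.mul_assoc]

lemma isUnit_T (hx : At e x) (hx' : At e' x) : IsUnit ((jacM e e' x)ᵀ).det := by
  rw [Matrix.det_transpose]; exact jacM_isUnit hx hx'

lemma isUnit_TH (hx : At e x) (hx' : At e' x) : IsUnit (((jacM e e' x)ᵀ)ᴴ).det := by
  rw [Matrix.det_conjTranspose]; exact (isUnit_T hx hx').star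

lemma bf_law (hg : IsHermitian g) (hh : IsSemi h) (hx : At e x) (hx' : At e' x) (s : ℝ) :
    Bf s (g e) (h e) (e x) = (((jacM e e' x)ᵀ)ᴴ)⁻¹ * Bf s (g e') (h e') (e' x) *
      ((jacM e e' x)ᵀ)⁻¹ := by
  have h2 : g e (e x) = (jacM e e' x)ᵀ * g e' (e' x) * ((jacM e e' x)ᵀ)ᴴ :=
    hg.change e e' x hx hx'
  unfold Bf
  rw [cf_law hg hh hx hx' s, h2]
  set A := (jacM e e' x)ᵀ
  set C := Cf s (g e') (h e') (e' x)
  have c1 : A⁻¹ * A = 1 := Matrix.nonsing_inv_mul _ (isUnit_T hx hx')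
  have c2 : Aᴴ * (Aᴴ)⁻¹ = 1 := Matrix.mul_nonsing_inv _ (isUnit_TH hx hx')
  calc _ = (Aᴴ)⁻¹ * C * (A⁻¹ * A) * g e' (e' x) * (Aᴴ * (Aᴴ)⁻¹) * C * A⁻¹ := by
        simp only [Matrix.mul_assoc]
    _ = _ := by rw [c1, c2, Matrix.mul_one, Matrix.mul_one]; simp only [Matrix.mul_assoc]

lemma wt_law (hg : IsHermitian g) (hh : IsSemi h) (hx : At e x) (hx' : At e' x) (s : ℝ) :
    wt s (g e) (h e) (e x) = wt s (g e') (h e') (e' x) * ((‖(jacM e e' x).det‖ ^ 2 : ℝ) : ℂ) := by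
  have h2 : g e (e x) = (jacM e e' x)ᵀ * g e' (e' x) * ((jacM e e' x)ᵀ)ᴴ :=
    hg.change e e' x hx hx'
  unfold wt
  rw [cf_law hg hh hx hx' s, h2]
  simp only [Matrix.det_mul, Matrix.det_nonsing_inv, Ring.inverse_eq_inv']
  have a1 : ((jacM e e' x)ᵀ).det ≠ 0 := (isUnit_T hx hx').ne_zero
  have a2 : (((jacM e e' x)ᵀ)ᴴ).det ≠ 0 := (isUnit_TH hx hx').ne_zero
  have a3 : (((jacM e e' x)ᵀ)ᴴ).det * ((jacM e e' x)ᵀ).det =
      ((‖(jacM e e' x).det‖ ^ 2 : ℝ) : ℂ) := by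
    rw [Matrix.det_conjTranspose, Matrix.det_transpose]
    show (starRingEnd ℂ) _ * _ = _
    rw [← Complex.normSq_eq_conj_mul_self, Complex.normSq_eq_norm_sq]
  rw [← a3]
  field_simp

/-- summation against the Jacobian -/
lemma sum_jac {J : Matrix (Fin n) (Fin n) ℂ} (hJ : IsUnit (Jᵀ).det)
    (Y : Matrix (Fin n) (Fin n) ℂ) (Z : Fin n → Matrix (Fin n) (Fin n) ℂ) (l : Fin n) :
    ∑ k, ∑ p, J p k * (Y * Z p * (Jᵀ)⁻¹) l k = ∑ p, (Y * Z p) l p := by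
  rw [Finset.sum_comm]
  refine Finset.sum_congr rfl fun p _ => ?_
  have h1 : Y * Z p = Y * Z p * (Jᵀ)⁻¹ * Jᵀ := by
    rw [Matrix.mul_assoc (Y * Z p), Matrix.nonsing_inv_mul _ hJ, Matrix.mul_one]
  conv_rhs => rw [h1]
  rw [Matrix.mul_apply]
  refine Finset.sum_congr rfl fun k _ => ?_
  rw [Matrix.transpose_apply]; ring

/-- the inner sum of the vector field -/
def vsum (C B : Matrix (Fin n) (Fin n) ℂ) (N : Fin n → Matrix (Fin n) (Fin n) ℂ) (l : Fin n) : ℂ :=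
  ∑ k, (C l k * (C * N k).trace + (C * N k * C) l k + 2 * (C * N k * B) l k
    - 2 * (B * N k * C) l k)

lemma vsum_law {J C B : Matrix (Fin n) (Fin n) ℂ} {N : Fin n → Matrix (Fin n) (Fin n) ℂ}
    (hJ : IsUnit (Jᵀ).det) (hJ' : IsUnit ((Jᵀ)ᴴ).det) (l : Fin n) :
    vsum (((Jᵀ)ᴴ)⁻¹ * C * (Jᵀ)⁻¹) (((Jᵀ)ᴴ)⁻¹ * B * (Jᵀ)⁻¹)
      (fun k => ∑ p, J p k • (Jᵀ * N p * (Jᵀ)ᴴ)) l = ∑ q, ((Jᵀ)ᴴ)⁻¹ l q * vsum C B N q := by
  set A := Jᵀ with hA
  have c1 : A⁻¹ * A = 1 := Matrix.nonsing_inv_mul _ hJ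
  have c2 : Aᴴ * (Aᴴ)⁻¹ = 1 := Matrix.mul_nonsing_inv _ hJ'
  have c3 : (Aᴴ)⁻¹ * Aᴴ = 1 := Matrix.nonsing_inv_mul _ hJ'
  -- products with N
  have k1 : ∀ (U V : Matrix (Fin n) (Fin n) ℂ) (k : Fin n),
      (Aᴴ)⁻¹ * U * A⁻¹ * (∑ p, J p k • (A * N p * Aᴴ)) * ((Aᴴ)⁻¹ * V * A⁻¹) =
      ∑ p, J p k • ((Aᴴ)⁻¹ * (U * N p * V) * A⁻¹) := by
    intro U V k
    rw [Matrix.mul_sum, Matrix.sum_mul]
    refine Finset.sum_congr rfl fun p _ => ?_
    rw [Matrix.mul_smul, Matrix.smul_mul]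
    congr 1
    calc _ = (Aᴴ)⁻¹ * U * (A⁻¹ * A) * N p * (Aᴴ * (Aᴴ)⁻¹) * V * A⁻¹ := by
          simp only [Matrix.mul_assoc]
      _ = _ := by rw [c1, c2, Matrix.mul_one, Matrix.mul_one]; simp only [Matrix.mul_assoc]
  have k2 : ∀ (k : Fin n), ((Aᴴ)⁻¹ * C * A⁻¹ * (∑ p, J p k • (A * N p * Aᴴ))).trace =
      ∑ p, J p k * (C * N p).trace := by
    intro k
    rw [Matrix.mul_sum, Matrix.trace_sum]
    refine Finset.sum_congr rfl fun p _ => ?_
    rw [Matrix.mul_smul, Matrix.trace_smul, smul_eq_mul]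
    congr 1
    calc _ = ((Aᴴ)⁻¹ * (C * (A⁻¹ * A) * N p * Aᴴ)).trace := by
          simp only [Matrix.mul_assoc]
      _ = _ := by
        rw [c1, Matrix.mul_one, Matrix.trace_mul_comm, Matrix.mul_assoc (C * N p), c2,
          Matrix.mul_one]
  have e0 : ∀ k, (((Aᴴ)⁻¹ * C * A⁻¹) l k * ∑ p, J p k * (C * N p).trace) =
      ∑ p, J p k * ((Aᴴ)⁻¹ * ((C * N p).trace • C) * A⁻¹) l k := by
    intro k
    rw [Finset.mul_sum]
    refine Finset.sum_congr rfl fun p _ => ?_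
    rw [Matrix.mul_smul, Matrix.smul_mul, Matrix.smul_apply, smul_eq_mul]; ring
  unfold vsum
  simp only [k1, k2, e0, Matrix.sum_apply, Matrix.smul_apply, smul_eq_mul]
  simp only [Finset.sum_add_distrib, Finset.sum_sub_distrib, ← Finset.mul_sum]
  rw [sum_jac hJ (Aᴴ)⁻¹ (fun p => (C * N p).trace • C) l,
    sum_jac hJ (Aᴴ)⁻¹ (fun p => C * N p * C) l, sum_jac hJ (Aᴴ)⁻¹ (fun p => C * N p * B) l,
    sum_jac hJ (Aᴴ)⁻¹ (fun p => B * N p * C) l]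
  have e1 : ∀ Z : Fin n → Matrix (Fin n) (Fin n) ℂ, ∑ p, ((Aᴴ)⁻¹ * Z p) l p =
      ∑ q, (Aᴴ)⁻¹ l q * ∑ p, Z p q p := by
    intro Z
    simp only [Matrix.mul_apply, Finset.mul_sum]
    exact Finset.sum_comm
  rw [e1, e1, e1, e1]
  simp only [mul_add, mul_sub, Finset.sum_add_distrib, Finset.sum_sub_distrib, Finset.mul_sum,
    Matrix.smul_apply, smul_eq_mul]
  congr 1
  · congr 1
    · congr 1
      refine Finset.sum_congr rfl fun q _ => Finset.sum_congr rfl fun p _ => ?_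
      ring
    · refine Finset.sum_congr rfl fun q _ => Finset.sum_congr rfl fun p _ => ?_
      ring
  · refine Finset.sum_congr rfl fun q _ => Finset.sum_congr rfl fun p _ => ?_
    ring

lemma vf_eq (s : ℝ) (g h : Cm n → Matrix (Fin n) (Fin n) ℂ) (l : Fin n) (z : Cm n) :
    vf s g h l z = wt s g h z * vsum (Cf s g h z) (Bf s g h z) (Nf g h z) l := rfl

/-- **transformation law of the vector field** -/
theorem vf_law (hg : IsHermitian g) (hh : IsSemi h) (hx : At e x) (hx' : At e' x) (s : ℝ)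
    (l : Fin n) :
    vf s (g e) (h e) l (e x) = ((‖(jacM e e' x).det‖ ^ 2 : ℝ) : ℂ) *
      ∑ q, (((jacM e e' x)ᵀ)ᴴ)⁻¹ l q * vf s (g e') (h e') q (e' x) := by
  rw [vf_eq, wt_law hg hh hx hx' s, cf_law hg hh hx hx' s, bf_law hg hh hx hx' s]
  have h1 : Nf (g e) (h e) (e x) = fun k => ∑ p, jacM e e' x p k •
      ((jacM e e' x)ᵀ * Nf (g e') (h e') (e' x) p * ((jacM e e' x)ᵀ)ᴴ) :=
    funext fun k => nf_law hg hh hx hx' k
  rw [h1, vsum_law (isUnit_T hx hx') (isUnit_TH hx hx')]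
  simp only [vf_eq, Finset.mul_sum]
  refine Finset.sum_congr rfl fun q _ => ?_
  ring

/-- the pairing of `∂̄u` with the vector field -/
def Wd (s : ℝ) (g h : Chart n X → Cm n → Matrix (Fin n) (Fin n) ℂ) (u : X → ℝ) (e : Chart n X)
    (z : Cm n) : ℝ :=
  (∑ l, dzb l (fun y => ((u (e.symm y) : ℝ) : ℂ)) z * vf s (g e) (h e) l z).re

lemma wd_change (hg : IsHermitian g) (hh : IsSemi h) {u : X → ℝ} (hu : SmoothFn (n := n) u)
    (hx : At e x) (hx' : At e' x) (s : ℝ) :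
    Wd s g h u e (e x) = Wd s g h u e' (e' x) * ‖(jacM e e' x).det‖ ^ 2 := by
  have h1 : ∀ l, dzb l (fun y => ((u (e.symm y) : ℝ) : ℂ)) (e x) =
      ∑ q, dzb q (fun y => ((u (e'.symm y) : ℝ) : ℂ)) (e' x) * ((jacM e e' x)ᵀ)ᴴ q l := by
    intro l
    have k1 : (fun y => ((u (e.symm y) : ℝ) : ℂ)) =ᶠ[𝓝 (e x)]
        fun y => (fun w => ((u (e'.symm w) : ℝ) : ℂ)) ((fun z => e' (e.symm z)) y) := by
      filter_upwards [hx.nhds_at hx'] with z hz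
      simp only [hz.2.2.left_inv]
    have k2 : (fun z => e' (e.symm z)) (e x) = e' x := by simp only [hx.left_inv]
    have k3 : DifferentiableAt ℝ (fun w => ((u (e'.symm w) : ℝ) : ℂ))
        ((fun z => e' (e.symm z)) (e x)) := by
      rw [k2]
      exact ((ofReal_contDiffAt (hu e' x hx')).differentiableAt (by simp))
    rw [dzb_congr k1, dzb_comp_holo (τ := fun z => e' (e.symm z)) k3
      (transition_differentiableAt hx hx')]
    simp only [hx.left_inv]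
    rfl
  unfold Wd
  have h2 : ∑ l, dzb l (fun y => ((u (e.symm y) : ℝ) : ℂ)) (e x) * vf s (g e) (h e) l (e x) =
      ((‖(jacM e e' x).det‖ ^ 2 : ℝ) : ℂ) *
        ∑ q, dzb q (fun y => ((u (e'.symm y) : ℝ) : ℂ)) (e' x) * vf s (g e') (h e') q (e' x) := by
    simp only [h1, vf_law hg hh hx hx' s]
    set A := (jacM e e' x)ᵀ
    set c := ((‖(jacM e e' x).det‖ ^ 2 : ℝ) : ℂ)
    set du := fun q => dzb q (fun y => ((u (e'.symm y) : ℝ) : ℂ)) (e' x)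
    set v := fun q => vf s (g e') (h e') q (e' x)
    have c2 : Aᴴ * (Aᴴ)⁻¹ = 1 := Matrix.mul_nonsing_inv _ (isUnit_TH hx hx')
    have k1 : ∑ l, (∑ q, du q * Aᴴ q l) * (c * ∑ r, (Aᴴ)⁻¹ l r * v r) =
        c * ((du ᵥ* Aᴴ) ⬝ᵥ ((Aᴴ)⁻¹ *ᵥ v)) := by
      simp only [Matrix.vecMul, dotProduct, Matrix.mulVec]
      rw [Finset.mul_sum]
      refine Finset.sum_congr rfl fun l _ => ?_
      ring
    have k2 : (du ᵥ* Aᴴ) ⬝ᵥ ((Aᴴ)⁻¹ *ᵥ v) = du ⬝ᵥ v := by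
      rw [← Matrix.dotProduct_mulVec, Matrix.mulVec_mulVec, c2, Matrix.one_mulVec]
    show ∑ l, (∑ q, du q * Aᴴ q l) * (c * ∑ r, (Aᴴ)⁻¹ l r * v r) = c * (du ⬝ᵥ v)
    rw [k1, k2]
  rw [h2, Complex.re_ofReal_mul, mul_comm]

end Vale.Agent.P272.K.QN
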